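import Vale.Agent.P305Z.Top
import Vale.Agent.P305W88.Top

/-!
# P305: maximum matching in almost-linear randomized time on the word RAM with jumps

The machine has a program counter, jumps, registers and a memory of words of `w` bits, and its
arithmetic is modulo `2 ^ w`; the random bits are independent fair bits.
-/

namespace Vale.Agent.Results.P305.AAWordRAM

open Vale.Agent.P305W88

theorem result :
    (∃ (P : List Ins) (k : ℕ) (T : ℕ → ℕ → ℕ), Solves P k T ∧
      (∀ δ : ℝ, 0 < δ → ∃ C : ℝ, ∀ n m : ℕ, (T n m : ℝ) ≤ C * ((n : ℝ) + m + 1) ^ (1 + δ)) ∧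
      ∃ ε : ℕ → ℝ, Filter.Tendsto ε Filter.atTop (nhds 0) ∧
        ∀ n m : ℕ, (T n m : ℝ) ≤ ((n : ℝ) + m + 2) ^ (1 + ε (n + m))) ∧
    ∀ (P : List Ins) (k : ℕ) (T : ℕ → ℕ → ℕ), Solves P k T →
      ∀ (n : ℕ) (G : SimpleGraph (Fin n)), n + G.edgeSet.ncard ≤ T n G.edgeSet.ncard := by
  refine ⟨?_, fun P k T h n G => lower h G⟩
  obtain ⟨ph, k, g, hp⟩ := P305Z.phase
  obtain ⟨p, T, h1, h2⟩ := P305O.full hp
  obtain ⟨k', h3⟩ := solves h2
  exact ⟨_, k', _, h3, almost h1, P305O.eps_of_almostLin (almost h1)⟩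

end Vale.Agent.Results.P305.AAWordRAM
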