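import Vale.Agent.P305Z.Top

set_option autoImplicit false

namespace Vale.Agent.Results.P305.AAlmostLinear

open Vale.Agent.P305 Vale.Agent.P305.MM

/-- Maximum matching of every graph in almost-linear randomized time on the word RAM. -/
theorem result : ∃ (P : RProg) (T : ℕ → ℕ → ℕ), RandSolves P T ∧
    (∀ δ : ℝ, 0 < δ → ∃ C : ℝ, ∀ n m : ℕ, (T n m : ℝ) ≤ C * ((n : ℝ) + m + 1) ^ (1 + δ)) ∧
    ∃ ε : ℕ → ℝ, Filter.Tendsto ε Filter.atTop (nhds 0) ∧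
      ∀ n m : ℕ, (T n m : ℝ) ≤ ((n : ℝ) + m + 2) ^ (1 + ε (n + m)) := by
  obtain ⟨ph, k, g, hp⟩ := P305Z.phase
  obtain ⟨P, T, h1, h2⟩ := P305O.full hp
  exact ⟨P, T, h2, h1, P305O.eps_of_almostLin h1⟩

end Vale.Agent.Results.P305.AAlmostLinear
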