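import Vale.Agent.P305L.Classes
import Vale.Agent.P305.H529.Ball.Final
import Vale.Agent.P305.R2.H299.Dich

set_option autoImplicit false

namespace Vale.Agent.Results.P305.RandomizedClasses

open Vale.Agent.P305 Vale.Agent.P305.H529 Vale.Agent.P305.H287 Vale.Agent.P305.H299
  Vale.Agent.P305L

/-- Maximum matching in almost-linear randomized time on the word RAM, without any hypothesis, for
(1) chordal graphs, and, with `s = slow c G = 2 ^ (c log N / log log log N)`, for the graphs with
(2) search number at most `s`, (3) odd packing number at most `s`, (4) a vertex cover with at most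
`s` elements more than some matching, (5) a vertex set `X` met by no induced matching of more than
`s` edges, after whose deletion every component has packing number at most one or is the complement
of a disk graph, unit ball graph or circular-arc graph, (6) a complement of boxicity at most `s`;
(7) for the easy classes of partitioned graphs. -/
theorem result :
    RandAL (fun _ G => IsChordal G) ∧
    (∀ c : ℕ, RandAL fun _ G => searches G ≤ slow c G) ∧
    (∀ c : ℕ, RandAL fun _ G => oddPacking G ≤ slow c G) ∧
    (∀ c : ℕ, RandAL fun n G => ∃ (S : Set (Fin n)) (M : G.Subgraph),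
      G.IsVertexCover S ∧ M.IsMatching ∧ S.ncard ≤ M.edgeSet.ncard + slow c G) ∧
    (∀ c : ℕ, RandAL fun n G => ∃ X : Set (Fin n), inducedMatchingAt G X ≤ slow c G ∧
      ∀ K : G.ConnectedComponent, oddPackingIn G (K.supp \ X) ≤ 1 ∨
        IsCoDisk (G.induce (K.supp \ X)) ∨ IsCoBall (G.induce (K.supp \ X)) ∨
        IsCoArc (G.induce (K.supp \ X))) ∧
    (∀ c : ℕ, RandAL fun _ G => ∃ d : ℕ, d ≤ slow c G ∧ IsCoBox d G) ∧
    (∀ (k : ℕ) (H : Fin k → GraphClass), (∀ i, Hereditary (H i)) → Easy H →
      RandAL (Partitioned H)) := by
  have hp : ∀ c : ℕ, RandAL fun _ G => oddPacking G ≤ slow c G := fun c =>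
    (randAL_searches c).mono fun _ G h => by have := two_mul_searches_le G; omega
  refine ⟨randAL_chordal, randAL_searches, hp, fun c => (randAL_searches c).mono ?_,
    fun c => (randAL_searches c).mono ?_, fun c => (hp c).mono ?_, fun k H h1 h2 => ?_⟩
  · rintro n G ⟨S, M, h1, h2, h3⟩
    have := searches_le_cover h1 h2
    omega
  · rintro n G ⟨X, h1, h2⟩
    refine (searches_le_im G X fun K => ?_).trans h1
    rcases h2 K with h | h | h | h
    · exact h
    · exact in_codisk G _ h
    · exact in_coball G _ h
    · exact in_coarc G _ h
  · rintro n G ⟨d, h1, l, u, h2, h3⟩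
    rw [← oddPackingIn_univ]
    exact (in_cobox G Set.univ ⟨fun v => l v, fun v => u v, fun v => h2 v,
      fun a b e => h3 a b fun e' => e (Subtype.ext e')⟩).trans h1
  · obtain ⟨N, hN⟩ := packing_of_easy h1 h2
    exact (hp N).mono fun n G h => (hN n G h).trans (le_slow N G)

end Vale.Agent.Results.P305.RandomizedClasses
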